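import Vale.Agent.P181.H907.KS1

set_option autoImplicit false

/-!
# P181: `K*` for odd degree

A form on `d + 1` slots of odd degree `d`, symmetric, which kills all tuples with a common linear
factor, is zero (helper493). Here `d = c + 2`.
-/

namespace Vale.Agent.P181.H907

open Vale.Agent.P181 Vale.Agent.P181.H280 Finset

variable {A : Type*} [CommRing A] [Algebra ℂ A]

/-- The form in the first two slots, the second entry being multiplied by `z`. -/
noncomputable def bl {c : ℕ} (φ : MultilinearMap ℂ (fun _ : Fin (c + 3) => A) ℂ) (z : A)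
    (R : Fin (c + 1) → A) : A →ₗ[ℂ] A →ₗ[ℂ] ℂ :=
  LinearMap.mk₂ ℂ (fun P Q => φ (Fin.cons P (Fin.cons (z * Q) R)))
    (by
      intro P P' Q
      rw [MultilinearMap.cons_add])
    (by
      intro t P Q
      rw [MultilinearMap.cons_smul])
    (by
      intro P Q Q'
      have h1 := (φ.curryLeft P).cons_add R (z * Q) (z * Q')
      rw [mul_add]
      exact h1)
    (by
      intro t P Q
      have h1 := (φ.curryLeft P).cons_smul R t (z * Q)
      rw [mul_smul_comm]
      exact h1)

lemma bl_apply {c : ℕ} (φ : MultilinearMap ℂ (fun _ : Fin (c + 3) => A) ℂ) (z : A)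
    (R : Fin (c + 1) → A) (P Q : A) :
    bl φ z R P Q = φ (Fin.cons P (Fin.cons (z * Q) R)) := rfl

section Main

variable {c : ℕ} (L : Submodule ℂ A) (φ : MultilinearMap ℂ (fun _ : Fin (c + 3) => A) ℂ)

/-- The hypothesis: common linear factors are killed. -/
def Kill : Prop := ∀ l ∈ L, ∀ y : Fin (c + 3) → A, (∀ i, y i ∈ L ^ (c + 1)) →
  φ (fun i => l * y i) = 0

variable {L φ}

lemma ex1 (hφ : Kill L φ) (hc : Odd c) {u w : A} (hu : u ∈ L) (hw : w ∈ L)
    (v : Fin (c + 2) → A) (hv : ∀ i, v i ∈ L ^ (c + 1)) :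
    φ (Fin.cons (u ^ (c + 2)) (fun i => w * v i)) =
      -φ (Fin.cons (w ^ (c + 2)) (fun i => u * v i)) := by
  have h1 := exchange_eq L (e := c + 1) φ (by
    intro w hw g hg v hv
    rw [← hφ w hw (Fin.cons g v) (by
      intro i
      refine Fin.cases ?_ (fun s => ?_) i
      · exact hg
      · exact hv s)]
    congr 1
    funext i
    refine Fin.cases ?_ (fun s => ?_) i <;> rfl) u w hu hw v hv
  have h2 : (-1 : ℂ) ^ (c + 1 + 1) = -1 := by
    rw [pow_succ, pow_succ, hc.neg_one_pow]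
    norm_num
  rw [h2, neg_one_mul] at h1
  exact h1

lemma rho0 (hφ : Kill L φ) (hc : Odd c) {P w z : A} (hP : P ∈ L ^ (c + 2)) (hw : w ∈ L)
    (hz : z ∈ L) (V : Fin (c + 2) → A) (hV : ∀ i, V i ∈ L ^ c) :
    φ (Fin.cons P (fun i => w * (z * V i))) = 0 := by
  have hmem : ∀ x ∈ L, ∀ i, x * V i ∈ L ^ (c + 1) := by
    intro x hx i
    rw [pow_succ']
    exact Submodule.mul_mem_mul hx (hV i)
  have h1 : ∀ u ∈ L, φ (Fin.cons (u ^ (c + 2)) (fun i => w * (z * V i))) = 0 := by
    intro u hu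
    have e1 := ex1 hφ hc hu hw (fun i => z * V i) (hmem z hz)
    have e2 := ex1 hφ hc hw hz (fun i => u * V i) (hmem u hu)
    have e3 := ex1 hφ hc hz hu (fun i => w * V i) (hmem w hw)
    have s1 : (fun i => u * (z * V i)) = fun i => z * (u * V i) := by
      funext i
      ring
    have s2 : (fun i => w * (u * V i)) = fun i => u * (w * V i) := by
      funext i
      ring
    have s3 : (fun i => z * (w * V i)) = fun i => w * (z * V i) := by
      funext i
      ring
    rw [s1] at e1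
    rw [s2] at e2
    rw [s3] at e3
    linear_combination (1 / 2 : ℂ) * e1 - (1 / 2 : ℂ) * e2 + (1 / 2 : ℂ) * e3
  let T : A →ₗ[ℂ] ℂ :=
    { toFun := fun P => φ (Fin.cons P (fun i => w * (z * V i)))
      map_add' := fun P P' => φ.cons_add _ P P'
      map_smul' := fun t P => φ.cons_smul _ t P }
  have h2 : L ^ (c + 2) ≤ LinearMap.ker T := by
    refine le_trans (pow_le_span_pow L (c + 2)) ?_
    rw [Submodule.span_le]
    rintro _ ⟨u, hu, rfl⟩
    exact h1 u hu
  exact h2 hP

lemma ex2 (hφ : Kill L φ) (hc : Odd c) {P w y z : A} (hP : P ∈ L ^ (c + 2)) (hw : w ∈ L)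
    (hy : y ∈ L) (hz : z ∈ L) (V : Fin (c + 1) → A) (hV : ∀ i, V i ∈ L ^ c) :
    φ (Fin.cons P (Fin.cons (w * y ^ (c + 1)) (fun i => w * (z * V i)))) =
      φ (Fin.cons P (Fin.cons (w * z ^ (c + 1)) (fun i => w * (y * V i)))) := by
  have h1 := exchange_eq L (e := c) (mulArg (φ.curryLeft P) (fun _ => w)) (by
    intro z hz g hg v hv
    rw [mulArg_apply, MultilinearMap.curryLeft_apply, ← rho0 hφ hc hP hw hz (Fin.cons g v) (by
      intro i
      refine Fin.cases ?_ (fun s => ?_) i
      · exact hg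
      · exact hv s)]
    congr 2
    funext i
    refine Fin.cases ?_ (fun s => ?_) i <;> rfl) y z hy hz V hV
  have h2 : (-1 : ℂ) ^ (c + 1) = 1 := by
    rw [pow_succ, hc.neg_one_pow]
    norm_num
  rw [h2, one_mul, mulArg_apply, mulArg_apply, MultilinearMap.curryLeft_apply,
    MultilinearMap.curryLeft_apply] at h1
  have e1 : ∀ (x : A) (W : Fin (c + 1) → A),
      (fun i => w * (Fin.cons x W : Fin (c + 2) → A) i) =
      (Fin.cons (w * x) (fun i => w * W i) : Fin (c + 2) → A) := by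
    intro x W
    funext i
    refine Fin.cases ?_ (fun s => ?_) i <;> rfl
  rw [e1, e1] at h1
  exact h1

/-- The coefficient of `t^j` of `φ(P; a Q; a (a + t y) V)`. -/
noncomputable def B2 (φ : MultilinearMap ℂ (fun _ : Fin (c + 3) => A) ℂ) (a y : A)
    (V : Fin (c + 1) → A) (j : ℕ) : A →ₗ[ℂ] A →ₗ[ℂ] ℂ :=
  ∑ s : Finset (Fin (c + 1)), if (sᶜ).card = j then
    bl φ a (s.piecewise (fun l => a * (a * V l)) (fun l => a * (y * V l))) else 0

lemma B2_apply (φ : MultilinearMap ℂ (fun _ : Fin (c + 3) => A) ℂ) (a y : A)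
    (V : Fin (c + 1) → A) (j : ℕ) (P Q : A) : B2 φ a y V j P Q =
    ∑ s : Finset (Fin (c + 1)), if (sᶜ).card = j then
      φ (Fin.cons P (Fin.cons (a * Q)
        (s.piecewise (fun l => a * (a * V l)) (fun l => a * (y * V l))))) else 0 := by
  rw [B2, LinearMap.sum_apply, LinearMap.sum_apply]
  apply Finset.sum_congr rfl
  intro s _
  split_ifs
  · rfl
  · rfl

/-- The values of `B2` at powers. -/
lemma B2_pow (hφ : Kill L φ) (hc : Odd c) {a y P z : A} (ha : a ∈ L) (hy : y ∈ L)
    (hP : P ∈ L ^ (c + 2)) (hz : z ∈ L) (V : Fin (c + 1) → A) (hV : ∀ i, V i ∈ L ^ c)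
    (j : ℕ) (hj : j ≤ c + 1) :
    B2 φ a y V j P (z ^ (c + 1)) = ((c + 1).choose j : ℂ) *
      φ (Fin.cons P (Fin.cons (a * (a ^ (c + 1 - j) * y ^ j)) (fun l => a * (z * V l)))) := by
  classical
  let p : Polynomial ℂ := ∑ s : Finset (Fin (c + 1)),
    Polynomial.C (φ (Fin.cons P (Fin.cons (a * z ^ (c + 1))
      (s.piecewise (fun l => a * (a * V l)) (fun l => a * (y * V l)))))) *
      Polynomial.X ^ (sᶜ).card
  let q : Polynomial ℂ := ∑ k ∈ range (c + 2),
    Polynomial.C (bl φ a (fun l => a * (z * V l)) P (PP a y (c + 1) k)) * Polynomial.X ^ k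
  have hpq : p = q := by
    apply Polynomial.funext
    intro t
    have h1 := ex2 hφ hc hP ha hz (L.add_mem ha (L.smul_mem t hy)) V hV
    have h2 : (fun i => a * ((a + t • y) * V i)) =
        (fun l => a * (a * V l)) + t • (fun l => a * (y * V l)) := by
      funext l
      simp only [Pi.add_apply, Pi.smul_apply]
      rw [add_mul, smul_mul_assoc, mul_add, mul_smul_comm]
    have h3 : p.eval t = φ (Fin.cons P (Fin.cons (a * z ^ (c + 1))
        (fun i => a * ((a + t • y) * V i)))) := by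
      have h4 := ((φ.curryLeft P).curryLeft (a * z ^ (c + 1))).map_add_univ
        (fun l => a * (a * V l)) (t • (fun l => a * (y * V l)))
      rw [MultilinearMap.curryLeft_apply, MultilinearMap.curryLeft_apply] at h4
      rw [h2, h4]
      simp only [p, Polynomial.eval_finsetSum, Polynomial.eval_mul, Polynomial.eval_C,
        Polynomial.eval_pow, Polynomial.eval_X]
      apply Finset.sum_congr rfl
      intro s _
      have h5 : s.piecewise (fun l => a * (a * V l)) (t • (fun l => a * (y * V l))) =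
          sᶜ.piecewise (fun i => t • (s.piecewise (fun l => a * (a * V l))
            (fun l => a * (y * V l))) i)
          (s.piecewise (fun l => a * (a * V l)) (fun l => a * (y * V l))) := by
        funext i
        by_cases hi : i ∈ s
        · simp [Finset.piecewise, hi]
        · simp [Finset.piecewise, hi]
      rw [h5, MultilinearMap.map_piecewise_smul, MultilinearMap.curryLeft_apply,
        MultilinearMap.curryLeft_apply]
      simp [mul_comm]
    have h6 : q.eval t = φ (Fin.cons P (Fin.cons (a * (a + t • y) ^ (c + 1))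
        (fun i => a * (z * V i)))) := by
      rw [← bl_apply, pow_PP, map_sum]
      simp only [q, Polynomial.eval_finsetSum, Polynomial.eval_mul, Polynomial.eval_C,
        Polynomial.eval_pow, Polynomial.eval_X]
      apply Finset.sum_congr rfl
      intro k _
      rw [map_smul, smul_eq_mul, mul_comm]
    rw [h3, h6]
    exact h1
  have h7 := congrArg (fun r => r.coeff j) hpq
  simp only [p, q, Polynomial.finsetSum_coeff, Polynomial.coeff_C_mul, Polynomial.coeff_X_pow,
    mul_ite, mul_one, mul_zero] at h7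
  rw [Finset.sum_ite_eq, if_pos (by rw [Finset.mem_range]; omega), PP, map_smul, smul_eq_mul,
    bl_apply] at h7
  rw [B2_apply, ← h7]
  apply Finset.sum_congr rfl
  intro s _
  by_cases h8 : (sᶜ).card = j
  · rw [if_pos h8, if_pos h8.symm]
  · rw [if_neg h8, if_neg (fun h9 => h8 h9.symm)]

lemma swap01 (hs : IsSymm φ) (P Q : A) (R : Fin (c + 1) → A) :
    φ (Fin.cons P (Fin.cons Q R)) = φ (Fin.cons Q (Fin.cons P R)) := by
  rw [← hs (Equiv.swap 0 1) (Fin.cons P (Fin.cons Q R))]
  congr 1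
  funext i
  refine Fin.cases ?_ (fun s => ?_) i
  · rw [Equiv.swap_apply_left]
    rfl
  · refine Fin.cases ?_ (fun s => ?_) s
    · have h2 : (Fin.succ 0 : Fin (c + 3)) = 1 := rfl
      rw [h2, Equiv.swap_apply_right]
      rfl
    · rw [Equiv.swap_apply_of_ne_of_ne (Fin.succ_ne_zero _)]
      · simp
      · intro h2
        have h3 : (1 : Fin (c + 3)) = Fin.succ 0 := rfl
        rw [h3] at h2
        exact Fin.succ_ne_zero _ (Fin.succ_injective _ h2)

/-- The induction step. -/
theorem level (hφ : Kill L φ) (hc : Odd c) (hs : IsSymm φ) (V : Fin (c + 1) → A)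
    (hV : ∀ i, V i ∈ L ^ c) (j : ℕ) (hj : j ≤ c + 1)
    (hA : ∀ a ∈ L, ∀ y ∈ L, ∀ z ∈ L, ∀ w ∈ L, ∀ i l : ℕ, i + l < j →
      φ (Fin.cons (a ^ (c + 1 + 1 - i) * y ^ i)
        (Fin.cons (z * (a ^ (c + 1 - l) * y ^ l)) (fun s => z * (w * V s)))) = 0)
    {a y z w : A} (ha : a ∈ L) (hy : y ∈ L) (hz : z ∈ L) (hw : w ∈ L) :
    φ (Fin.cons (a ^ (c + 1 + 1))
      (Fin.cons (z * (a ^ (c + 1 - j) * y ^ j)) (fun s => z * (w * V s)))) = 0 := by
  classical
  have hchoose : ((c + 1).choose j : ℂ) ≠ 0 := Nat.cast_ne_zero.2 (Nat.choose_pos hj).ne'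
  have hg : a ^ (c + 1 - j) * y ^ j ∈ L ^ (c + 1) := by
    have h1 : L ^ (c + 1) = L ^ (c + 1 - j) * L ^ j := by
      rw [← pow_add]
      congr 1
      omega
    rw [h1]
    exact Submodule.mul_mem_mul (Submodule.pow_mem_pow _ ha _) (Submodule.pow_mem_pow _ hy _)
  set g := a ^ (c + 1 - j) * y ^ j with hgdef
  have hVz : ∀ x ∈ L, ∀ i, x * V i ∈ L ^ (c + 1) := by
    intro x hx i
    rw [pow_succ']
    exact Submodule.mul_mem_mul hx (hV i)
  have hag : a * g = a ^ (c + 1 + 1 - j) * y ^ j := by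
    have h3 : c + 1 + 1 - j = c + 1 - j + 1 := by omega
    rw [hgdef, h3, pow_succ]
    ring
  have hagm : a * g ∈ L ^ (c + 2) := by
    rw [pow_succ']
    exact Submodule.mul_mem_mul ha hg
  have hcons : ∀ (x x' : A) (W : Fin (c + 1) → A),
      (Fin.cons (x * x') (fun i => x * W i) : Fin (c + 2) → A) =
      fun i => x * (Fin.cons x' W : Fin (c + 2) → A) i := by
    intro x x' W
    funext i
    refine Fin.cases ?_ (fun s => ?_) i <;> rfl
  -- values of `B2`
  have hB : ∀ w ∈ L, ∀ z ∈ L, B2 φ a y V j (w ^ (c + 1 + 1)) (z ^ (c + 1)) =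
      -(((c + 1).choose j : ℂ) * φ (Fin.cons (a ^ (c + 1 + 1))
        (Fin.cons (w * g) (fun s => w * (z * V s))))) := by
    intro w hw z hz
    rw [B2_pow hφ hc ha hy (Submodule.pow_mem_pow _ hw _) hz V hV j hj, ← mul_neg]
    congr 1
    have hm : ∀ i, (Fin.cons g (fun s => z * V s) : Fin (c + 2) → A) i ∈ L ^ (c + 1) := by
      intro i
      refine Fin.cases ?_ (fun s => ?_) i
      · exact hg
      · exact hVz z hz s
    have h1 := ex1 hφ hc hw ha (Fin.cons g (fun s => z * V s)) hm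
    rw [← hcons, ← hcons] at h1
    exact h1
  have hrel : ∀ w ∈ L, ∀ z ∈ L, ((c + 1 + 1 : ℕ) : ℂ) *
      B2 φ a y V j (w ^ (c + 1) * z) (z ^ (c + 1)) =
      ((-1) ^ (j + 1) * ((c + 1 + 1 - j : ℕ) : ℂ)) *
        B2 φ a y V j (z ^ (c + 1 + 1)) (w ^ (c + 1)) := by
    intro w hw z hz
    have hwz : w ^ (c + 1) * z ∈ L ^ (c + 2) := by
      rw [pow_succ]
      exact Submodule.mul_mem_mul (Submodule.pow_mem_pow _ hw _) hz
    rw [hB z hz w hw, B2_pow hφ hc ha hy hwz hz V hV j hj, ← hgdef, swap01 hs]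
    have h1 := ex2 hφ hc hagm hz hw ha V hV
    have e1 : (fun i => z * (a * V i)) = fun i => a * (z * V i) := by
      funext i
      ring
    rw [e1, mul_comm z (w ^ (c + 1))] at h1
    rw [h1]
    have h2 := chain_end (bl φ z (fun s => z * (w * V s))) L (c + 1) j hj (by
      intro a ha y hy i l hil
      exact hA a ha y hy z hz w hw i l hil) a y ha hy
    rw [bl_apply, bl_apply, ← hag, ← hgdef] at h2
    have hps : (-1 : ℂ) ^ (j + 1) = (-1) ^ j * (-1) := pow_succ _ _
    rw [hps]
    linear_combination ((c + 1).choose j : ℂ) * h2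
  have hfin := rigid (B2 φ a y V j) L (c + 1) ((-1) ^ (j + 1) * ((c + 1 + 1 - j : ℕ) : ℂ)) (by
    intro m hm he
    have h1 : ((c + 1 + 1 - m : ℕ) : ℂ) = (c + 1 + 1 - j : ℕ) ∨
        ((c + 1 + 1 - m : ℕ) : ℂ) = -((c + 1 + 1 - j : ℕ) : ℂ) := by
      rcases Nat.even_or_odd m with h2 | h2 <;> rcases Nat.even_or_odd j with h3 | h3
      · rw [h2.neg_one_pow, h3.add_one.neg_one_pow] at he
        right
        linear_combination he
      · rw [h2.neg_one_pow, h3.add_one.neg_one_pow] at he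
        left
        linear_combination he
      · rw [h2.neg_one_pow, h3.add_one.neg_one_pow] at he
        left
        linear_combination -he
      · rw [h2.neg_one_pow, h3.add_one.neg_one_pow] at he
        right
        linear_combination -he
    rcases h1 with h1 | h1
    · have h2 : c + 1 + 1 - m = c + 1 + 1 - j := by exact_mod_cast h1
      have h3 : m = j := by omega
      rw [h3, pow_succ] at he
      have h4 : ((-1 : ℂ) ^ j) * ((c + 1 + 1 - j : ℕ) : ℂ) = 0 := by linear_combination (1/2) * he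
      rcases mul_eq_zero.1 h4 with h5 | h5
      · exact absurd h5 (pow_ne_zero _ (by norm_num))
      · rw [Nat.cast_eq_zero] at h5
        omega
    · have h2 : ((c + 1 + 1 - m + (c + 1 + 1 - j) : ℕ) : ℂ) = 0 := by
        rw [Nat.cast_add, h1]
        ring
      rw [Nat.cast_eq_zero] at h2
      omega) hrel z w hz hw
  rw [hB z hz w hw, neg_eq_zero] at hfin
  exact (mul_eq_zero.1 hfin).resolve_left hchoose

theorem allZero (hφ : Kill L φ) (hc : Odd c) (hs : IsSymm φ) (V : Fin (c + 1) → A)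
    (hV : ∀ i, V i ∈ L ^ c) : ∀ j ≤ c + 2, ∀ a ∈ L, ∀ y ∈ L, ∀ z ∈ L, ∀ w ∈ L, ∀ i l : ℕ,
      i + l < j → φ (Fin.cons (a ^ (c + 1 + 1 - i) * y ^ i)
        (Fin.cons (z * (a ^ (c + 1 - l) * y ^ l)) (fun s => z * (w * V s)))) = 0 := by
  intro j
  induction j with
  | zero =>
    intro _ a _ y _ z _ w _ i l h
    exact absurd h (Nat.not_lt_zero _)
  | succ j ih =>
    intro hj a ha y hy z hz w hw i l hil
    exact chain_zero (bl φ z (fun s => z * (w * V s))) L (c + 1) j (by omega)
      (fun a ha y hy i l hil => ih (by omega) a ha y hy z hz w hw i l hil)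
      (fun a ha y hy => level hφ hc hs V hV j (by omega) (ih (by omega)) ha hy hz hw)
      a y ha hy i l hil

/-- **`K*` for odd degree `d = c + 2`.** -/
theorem kStar (hφ : Kill L φ) (hc : Odd c) (hs : IsSymm φ) (P : Fin (c + 3) → A)
    (hP : ∀ i, P i ∈ L ^ (c + 2)) : φ P = 0 := by
  classical
  -- the value `X`
  have hX : ∀ a ∈ L, ∀ w ∈ L, ∀ y ∈ L, ∀ z ∈ L, ∀ V : Fin (c + 1) → A, (∀ i, V i ∈ L ^ c) →
      φ (Fin.cons (a ^ (c + 2)) (Fin.cons (w * y ^ (c + 1)) (fun s => w * (z * V s)))) = 0 := by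
    intro a ha w hw y hy z hz V hV
    have h1 := allZero hφ hc hs V hV (c + 2) le_rfl a ha y hy w hw z hz 0 (c + 1) (by omega)
    simpa using h1
  -- peel `z`
  have h2 : ∀ a ∈ L, ∀ w ∈ L, ∀ y ∈ L, ∀ W : Fin (c + 1) → A, (∀ i, W i ∈ L ^ (c + 1)) →
      φ (Fin.cons (a ^ (c + 2)) (Fin.cons (w * y ^ (c + 1)) (fun s => w * W s))) = 0 := by
    intro a ha w hw y hy W hW
    have h3 := peel L 1 (c + 1)
      (mulArg ((φ.curryLeft (a ^ (c + 2))).curryLeft (w * y ^ (c + 1))) (fun _ => w))
      (by omega) (by omega) (by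
        intro ξ hξ V hV
        rw [Nat.add_sub_cancel] at hV
        rw [mulArg_apply, MultilinearMap.curryLeft_apply, MultilinearMap.curryLeft_apply,
          ← hX a ha w hw y hy (ξ 0) (hξ 0) V hV]
        simp) W hW
    rw [mulArg_apply, MultilinearMap.curryLeft_apply, MultilinearMap.curryLeft_apply] at h3
    exact h3
  -- general entry in the second slot
  have h4 : ∀ a ∈ L, ∀ w ∈ L, ∀ W : Fin (c + 2) → A, (∀ i, W i ∈ L ^ (c + 1)) →
      φ (Fin.cons (a ^ (c + 2)) (fun s => w * W s)) = 0 := by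
    intro a ha w hw W hW
    have h5 : L ^ (c + 1) ≤ LinearMap.ker (bl φ w (fun s => w * W s.succ) (a ^ (c + 2))) := by
      refine le_trans (pow_le_span_pow L (c + 1)) ?_
      rw [Submodule.span_le]
      rintro _ ⟨y, hy, rfl⟩
      exact h2 a ha w hw y hy (fun s => W s.succ) (fun s => hW _)
    have h6 := h5 (hW 0)
    rw [LinearMap.mem_ker, bl_apply] at h6
    rw [← h6]
    congr 2
    funext i
    refine Fin.cases ?_ (fun s => ?_) i <;> rfl
  -- peel `w`
  have h7 : ∀ a ∈ L, ∀ W : Fin (c + 2) → A, (∀ i, W i ∈ L ^ (c + 2)) →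
      φ (Fin.cons (a ^ (c + 2)) W) = 0 := by
    intro a ha W hW
    have h8 := peel L 1 (c + 2) (φ.curryLeft (a ^ (c + 2))) (by omega) (by omega) (by
        intro ξ hξ V hV
        have h9 : c + 2 - 1 = c + 1 := by omega
        rw [h9] at hV
        rw [MultilinearMap.curryLeft_apply, ← h4 a ha (ξ 0) (hξ 0) V hV]
        simp) W hW
    exact h8
  have h10 : L ^ (c + 2) ≤ LinearMap.ker
      ({ toFun := fun Q => φ (Fin.cons Q (fun i => P i.succ))
         map_add' := fun Q Q' => φ.cons_add _ Q Q'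
         map_smul' := fun t Q => φ.cons_smul _ t Q } : A →ₗ[ℂ] ℂ) := by
    refine le_trans (pow_le_span_pow L (c + 2)) ?_
    rw [Submodule.span_le]
    rintro _ ⟨a, ha, rfl⟩
    exact h7 a ha (fun i => P i.succ) (fun i => hP _)
  have h11 : φ (Fin.cons (P 0) (fun i => P i.succ)) = 0 := h10 (hP 0)
  rw [← h11]
  congr 1
  funext i
  refine Fin.cases ?_ (fun s => ?_) i <;> rfl

end Main

end Vale.Agent.P181.H907
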