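import Vale.Agent.P181.H907.Y
import Vale.Agent.P181.H73.Asm

set_option autoImplicit false

namespace Vale.Agent.P181.H907

open Vale.Agent.P181 Vale.Agent.P181.H280 Finset

/-- The column property from the vanishing on arguments with a common linear factor. -/
theorem cstmt : H73.CStmt := by
  intro A _ _ L c φ hs hQ
  have h1 : YF L c φ := by
    apply yf_of_q L φ hs
    intro w hw g hg v hv
    rw [← hQ w hw (Fin.cons g v) hg (by
      intro p
      refine Fin.cases ?_ (fun p => ?_) p
      · intro h
        exact absurd rfl h
      · intro _
        exact hv p)]
    congr 1
    funext p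
    refine Fin.cases ?_ (fun p => ?_) p
    · rfl
    · rw [Fin.cons_succ, Fin.cons_succ, if_neg (Fin.succ_ne_zero p)]
  intro p q hpq u hu v hv P hP
  apply h1 _ p q hpq u hu v hv
  · rw [Function.update_of_ne hpq, Function.update_self]
  · rw [Function.update_self]
  · intro k
    by_cases hkq : k = q
    · subst hkq
      rw [Function.update_self, pow_succ']
      exact Submodule.mul_mem_mul hu hv
    · rw [Function.update_of_ne hkq]
      by_cases hkp : k = p
      · subst hkp
        rw [Function.update_self]
        exact Submodule.pow_mem_pow L hu _
      · rw [Function.update_of_ne hkp]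
        exact hP k

end Vale.Agent.P181.H907
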