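import Vale.Agent.P181.H983.TDefs
import Vale.Agent.P181.H280.Capelli

set_option autoImplicit false

/-!
# P181: the cap lemma

A form with the column property which is killed by the contraction with the determinant is zero.
-/

namespace Vale.Agent.P181.H907

open Vale.Agent.P181 Vale.Agent.P181.H280 Vale.Agent.P181.H73 Finset MvPolynomial

section Gen

variable {A : Type*} [CommRing A] [Algebra ℂ A]

/-- The contraction with other vectors of the span. -/
lemma altC_change {a : ℕ} (x : Fin a → A) (F : MultilinearMap ℂ (fun _ : Fin a => A) ℂ)
    (P : Fin a → A) (h0 : (altC x F) P = 0) (u : Fin a → A)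
    (hu : ∀ i, u i ∈ Submodule.span ℂ (Set.range x)) : (altC u F) P = 0 := by
  classical
  have hc : ∀ i, ∃ c : Fin a → ℂ, ∑ k, c k • x k = u i := fun i =>
    (Submodule.mem_span_range_iff_exists_fun ℂ).1 (hu i)
  choose c hc using hc
  let lin : (Fin a → ℂ) →ₗ[ℂ] A := Fintype.linearCombination ℂ x
  have hlin : ∀ v : Fin a → ℂ, lin v = ∑ k, v k • x k := fun v =>
    Fintype.linearCombination_apply ℂ x v
  let m : MultilinearMap ℂ (fun _ : Fin a => (Fin a → ℂ)) ℂ :=
    F.compLinearMap (fun i => (LinearMap.mulRight ℂ (P i)).comp lin)
  have hm : ∀ v : Fin a → Fin a → ℂ, m.alternatization v = (altC (fun i => lin (v i)) F) P := by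
    intro v
    rw [MultilinearMap.alternatization_apply, altC_apply]
    apply Finset.sum_congr rfl
    intro σ _
    rw [Units.smul_def, zsmul_eq_mul]
    rfl
  have h1 : m.alternatization = 0 := by
    rw [AlternatingMap.eq_smul_basis_det (Pi.basisFun ℂ (Fin a)) m.alternatization, hm]
    have h2 : (fun i => lin ((Pi.basisFun ℂ (Fin a)) i)) = x := by
      funext i
      rw [hlin]
      simp [Pi.basisFun_apply, Pi.single_apply]
    rw [h2, h0, zero_smul]
  have h3 := hm c
  rw [h1] at h3
  have h4 : (fun i => lin (c i)) = u := by
    funext i
    rw [hlin, hc]
  rw [h4] at h3
  exact h3.symm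

/-- The cap lemma on powers. -/
theorem cap_powers {a j : ℕ} {L : Submodule ℂ A} {φ : MultilinearMap ℂ (fun _ : Fin a => A) ℂ}
    (h : Col L j φ) (u : Fin a → A) (hu : ∀ i, u i ∈ L)
    (h0 : ∀ P : Fin a → A, (∀ i, P i ∈ L ^ j) → (altC u φ) P = 0) :
    φ (fun i => u i ^ (j + 1)) = 0 := by
  classical
  let g : ℕ → (Fin a → A) → Equiv.Perm (Fin a) → ℂ := fun m P σ =>
    if fixB m σ then φ (fun i => if (i : ℕ) < m then u i ^ (j + 1) else u (σ i) * P i) else 0
  have main : ∀ m : ℕ, m ≤ a → ∀ P : Fin a → A, (∀ i, P i ∈ L ^ j) →
      ∑ σ : Equiv.Perm (Fin a), ((Equiv.Perm.sign σ : ℤ) : ℂ) * g m P σ = 0 := by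
    intro m
    induction m with
    | zero =>
      intro _ P hP
      rw [← h0 P hP, altC_apply]
      apply Finset.sum_congr rfl
      intro σ _
      have h1 : fixB 0 σ := fun i hi => absurd hi (Nat.not_lt_zero _)
      simp only [g]
      rw [if_pos h1]
      simp only [Nat.not_lt_zero, if_false]
    | succ m ih =>
      intro hm P hP
      have hma : m < a := hm
      let m' : Fin a := ⟨m, hma⟩
      have hm'm : (m' : ℕ) = m := rfl
      let P' : Fin a → A := Function.update P m' (u m' ^ j)
      have hP'm : P' m' = u m' ^ j := Function.update_self _ _ _
      have hP'n : ∀ i, i ≠ m' → P' i = P i := fun i hi => Function.update_of_ne hi _ _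
      have ihm := ih (by omega) P' (by
        intro i
        by_cases hi : i = m'
        · subst hi
          rw [hP'm]
          exact Submodule.pow_mem_pow _ (hu _) _
        · rw [hP'n i hi]
          exact hP i)
      set S : ℂ := ∑ σ : Equiv.Perm (Fin a), ((Equiv.Perm.sign σ : ℤ) : ℂ) * g (m + 1) P σ with hS
      have hfix : ∀ σ : Equiv.Perm (Fin a), fixB (m + 1) σ ↔ (fixB m σ ∧ σ m' = m') := by
        intro σ
        constructor
        · intro h1
          exact ⟨fun i hi => h1 i (by omega), h1 m' (by rw [hm'm]; omega)⟩
        · rintro ⟨h1, h2⟩ i hi
          by_cases h3 : (i : ℕ) < m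
          · exact h1 i h3
          · have h4 : i = m' := Fin.ext (by rw [hm'm]; omega)
            rw [h4, h2]
      have hsplit : ∀ σ : Equiv.Perm (Fin a), ((Equiv.Perm.sign σ : ℤ) : ℂ) * g m P' σ =
          ∑ i, ((Equiv.Perm.sign σ : ℤ) : ℂ) * (if σ i = m' then g m P' σ else 0) := by
        intro σ
        rw [Finset.sum_eq_single (σ.symm m')]
        · rw [if_pos (Equiv.apply_symm_apply _ _)]
        · intro i _ hi
          rw [if_neg, mul_zero]
          intro h1
          apply hi
          rw [← h1, Equiv.symm_apply_apply]
        · intro h1
          exact absurd (Finset.mem_univ _) h1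
      rw [Finset.sum_congr rfl (fun σ _ => hsplit σ), Finset.sum_comm] at ihm
      have hterm : ∀ i : Fin a, ((j + 1 : ℕ) : ℂ) * ∑ σ : Equiv.Perm (Fin a),
          ((Equiv.Perm.sign σ : ℤ) : ℂ) * (if σ i = m' then g m P' σ else 0) =
          (if (i : ℕ) < m then 0 else if i = m' then ((j + 1 : ℕ) : ℂ) * S else S) := by
        intro i
        by_cases hi : (i : ℕ) < m
        · rw [if_pos hi, Finset.sum_eq_zero, mul_zero]
          intro σ _
          by_cases hσ : σ i = m'
          · rw [if_pos hσ]
            simp only [g]
            rw [if_neg, mul_zero]
            intro h1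
            have h2 := h1 i hi
            rw [hσ] at h2
            rw [← h2] at hi
            omega
          · rw [if_neg hσ, mul_zero]
        · rw [if_neg hi]
          by_cases him : i = m'
          · rw [if_pos him]
            subst him
            congr 1
            rw [hS]
            apply Finset.sum_congr rfl
            intro σ _
            congr 1
            by_cases hσ : σ m' = m'
            · rw [if_pos hσ]
              simp only [g]
              by_cases hf : fixB m σ
              · rw [if_pos hf, if_pos ((hfix σ).2 ⟨hf, hσ⟩)]
                congr 1
                funext k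
                by_cases hk : (k : ℕ) < m
                · rw [if_pos hk, if_pos (by omega)]
                · rw [if_neg hk]
                  by_cases hk2 : k = m'
                  · rw [hk2, hσ, hP'm, if_pos (by rw [hm'm]; omega), pow_succ']
                  · rw [hP'n k hk2, if_neg]
                    intro h5
                    apply hk2
                    apply Fin.ext
                    rw [hm'm]
                    omega
              · rw [if_neg hf, if_neg (fun h5 => hf ((hfix σ).1 h5).1)]
            · rw [if_neg hσ]
              simp only [g]
              rw [if_neg (fun h5 => hσ ((hfix σ).1 h5).2)]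
          · rw [if_neg him]
            have hlt : m < (i : ℕ) := by
              rcases Nat.lt_or_ge m (i : ℕ) with h5 | h5
              · exact h5
              · exact absurd (Fin.ext (by rw [hm'm]; omega)) him
            rw [sum_sign_right _ (j := m') (j' := i) (fun h5 => him h5.symm), mul_neg,
              Finset.mul_sum, ← Finset.sum_neg_distrib, hS]
            apply Finset.sum_congr rfl
            intro σ _
            have h6 : (σ * Equiv.swap m' i) i = σ m' := by
              rw [Equiv.Perm.coe_mul, Function.comp_apply, Equiv.swap_apply_right]
            rw [h6]
            by_cases hσ : σ m' = m'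
            · rw [if_pos hσ]
              simp only [g]
              by_cases hf : fixB m σ
              · rw [if_pos ((fixB_mul_swap (m := m) (j := m') (j' := i) le_rfl hlt.le σ).2 hf),
                  if_pos ((hfix σ).2 ⟨hf, hσ⟩)]
                let R : Fin a → A := fun k =>
                  if (k : ℕ) < m + 1 then u k ^ (j + 1) else u (σ k) * P k
                have hR : ∀ k, R k ∈ L ^ (j + 1) := by
                  intro k
                  simp only [R]
                  split_ifs
                  · exact Submodule.pow_mem_pow _ (hu _) _
                  · rw [pow_succ']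
                    exact Submodule.mul_mem_mul (hu _) (hP k)
                have h7 := h.pol (p := m') (q := i) (fun h5 => him h5.symm) (hu m') (hu (σ i))
                  (hP i) R hR
                have h8 : (fun k : Fin a => if (k : ℕ) < m then u k ^ (j + 1) else
                    u ((σ * Equiv.swap m' i) k) * P' k) =
                    Function.update (Function.update R m' (u (σ i) * u m' ^ j)) i
                      (u m' * P i) := by
                  funext k
                  by_cases hki : k = i
                  · subst hki
                    rw [if_neg hi, Function.update_self, h6, hσ, hP'n k him]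
                  · rw [Function.update_of_ne hki]
                    by_cases hkm : k = m'
                    · subst hkm
                      rw [if_neg (by rw [hm'm]; omega), Function.update_self,
                        Equiv.Perm.coe_mul, Function.comp_apply, Equiv.swap_apply_left, hP'm]
                    · rw [Function.update_of_ne hkm]
                      simp only [R]
                      by_cases hk : (k : ℕ) < m
                      · rw [if_pos hk, if_pos (by omega)]
                      · rw [if_neg hk, if_neg, Equiv.Perm.coe_mul, Function.comp_apply,
                          Equiv.swap_apply_of_ne_of_ne hkm hki, hP'n k hkm]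
                        intro h5
                        apply hkm
                        apply Fin.ext
                        rw [hm'm]
                        omega
                have h9 : Function.update (Function.update R m' (u m' ^ (j + 1))) i
                    (u (σ i) * P i) = R := by
                  funext k
                  by_cases hki : k = i
                  · subst hki
                    rw [Function.update_self]
                    simp only [R]
                    rw [if_neg (by omega)]
                  · rw [Function.update_of_ne hki]
                    by_cases hkm : k = m'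
                    · subst hkm
                      rw [Function.update_self]
                      simp only [R]
                      rw [if_pos (by rw [hm'm]; omega)]
                    · rw [Function.update_of_ne hkm]
                rw [h9] at h7
                rw [h8]
                have h10 : φ R = -(((j + 1 : ℕ) : ℂ) * φ (Function.update
                    (Function.update R m' (u (σ i) * u m' ^ j)) i (u m' * P i))) := by
                  rw [eq_neg_iff_add_eq_zero, add_comm]
                  exact h7
                change _ = ((Equiv.Perm.sign σ : ℤ) : ℂ) * φ R
                rw [h10]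
                ring
              · rw [if_neg (fun h5 => hf ((fixB_mul_swap (m := m) (j := m') (j' := i)
                  le_rfl hlt.le σ).1 h5)), if_neg (fun h5 => hf ((hfix σ).1 h5).1)]
                ring
            · rw [if_neg hσ]
              simp only [g]
              rw [if_neg (fun h5 => hσ ((hfix σ).1 h5).2)]
              ring
      have htot : ∑ i : Fin a, (if (i : ℕ) < m then (0 : ℂ) else
          if i = m' then ((j + 1 : ℕ) : ℂ) * S else S) = 0 := by
        rw [← Finset.sum_congr rfl (fun i _ => hterm i), ← Finset.mul_sum, ihm, mul_zero]
      have hsum : ∑ i : Fin a, (if (i : ℕ) < m then (0 : ℂ) else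
          if i = m' then ((j + 1 : ℕ) : ℂ) * S else S) =
          ((j + 1 + (univ.filter (fun i : Fin a => m < (i : ℕ))).card : ℕ) : ℂ) * S := by
        have h11 : ∀ i : Fin a, (if (i : ℕ) < m then (0 : ℂ) else
            if i = m' then ((j + 1 : ℕ) : ℂ) * S else S) =
            (if i = m' then ((j + 1 : ℕ) : ℂ) * S else 0) + (if m < (i : ℕ) then S else 0) := by
          intro i
          by_cases h12 : (i : ℕ) < m
          · rw [if_pos h12, if_neg (by rintro rfl; omega), if_neg (by omega), add_zero]
          · rw [if_neg h12]
            by_cases h13 : i = m'
            · rw [if_pos h13, if_pos h13, if_neg (by rw [h13, hm'm]; omega), add_zero]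
            · rw [if_neg h13, if_neg h13, zero_add, if_pos]
              rcases Nat.lt_or_ge m (i : ℕ) with h5 | h5
              · exact h5
              · exact absurd (Fin.ext (by rw [hm'm]; omega)) h13
        rw [Finset.sum_congr rfl (fun i _ => h11 i), Finset.sum_add_distrib,
          Finset.sum_ite_eq' univ m', if_pos (Finset.mem_univ _), ← Finset.sum_filter,
          Finset.sum_const, nsmul_eq_mul]
        push_cast
        ring
      rw [hsum] at htot
      rcases mul_eq_zero.1 htot with h14 | h14
      · exfalso
        rw [Nat.cast_eq_zero] at h14
        omega
      · exact h14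
  by_cases ha : a = 0
  · subst ha
    have h1 := h0 (fun i => i.elim0) (fun i => i.elim0)
    rw [altC_apply, Fintype.sum_unique] at h1
    have h2 : (Equiv.Perm.sign (default : Equiv.Perm (Fin 0)) : ℤ) = 1 := by
      rw [Subsingleton.elim (default : Equiv.Perm (Fin 0)) 1, Equiv.Perm.sign_one]
      rfl
    rw [h2, Int.cast_one, one_mul] at h1
    rw [← h1]
    congr 1
    funext i
    exact i.elim0
  · have h1 : L ^ j ≤ L ^ j := le_rfl
    have hP : ∀ i : Fin a, u i ^ j ∈ L ^ j := fun i => Submodule.pow_mem_pow _ (hu i) _
    have h2 := main a le_rfl (fun i => u i ^ j) hP
    rw [Finset.sum_eq_single 1] at h2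
    · simp only [g] at h2
      rw [if_pos (show fixB a (1 : Equiv.Perm (Fin a)) from fun i _ => rfl),
        Equiv.Perm.sign_one] at h2
      simp only [Units.val_one, Int.cast_one, one_mul, Fin.is_lt, if_true] at h2
      exact h2
    · intro σ _ hσ
      simp only [g]
      rw [if_neg, mul_zero]
      intro h3
      exact hσ (Equiv.ext (fun i => h3 i i.isLt))
    · intro h3
      exact absurd (Finset.mem_univ _) h3

/-- **The cap lemma.** -/
theorem cap {a j : ℕ} (x : Fin a → A) {L : Submodule ℂ A}
    (hL : L = Submodule.span ℂ (Set.range x))
    {φ : MultilinearMap ℂ (fun _ : Fin a => A) ℂ} (h : Col L j φ)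
    (h0 : ∀ P : Fin a → A, (∀ i, P i ∈ L ^ j) → (altC x φ) P = 0) (P : Fin a → A)
    (hP : ∀ i, P i ∈ L ^ (j + 1)) : φ P = 0 := by
  apply multilinear_zero_of_span φ ((fun ζ => ζ ^ (j + 1)) '' (L : Set A)) _ P
    (fun i => pow_le_span_pow _ _ (hP i))
  intro w hw
  choose u hu huw using hw
  have h1 : w = fun i => u i ^ (j + 1) := by
    funext i
    exact (huw i).symm
  rw [h1]
  apply cap_powers h u hu
  intro P' hP'
  apply altC_change x φ P' (h0 P' hP') u
  intro i
  have := hu i
  rw [hL] at this
  exact this

end Gen

/-- (S8) -/
theorem s8 : H983.S8 := by
  intro a j φ h h0 P hP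
  exact cap (fun i => (X i : MvPolynomial (Fin a) ℂ)) rfl h h0 P hP

end Vale.Agent.P181.H907
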