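import Vale.Agent.P181.H907.Y
import Vale.Agent.P181.H73.Pass

set_option autoImplicit false

/-!
# P181: bilinear forms on powers (first part of `K*`)
-/

namespace Vale.Agent.P181.H907

open Vale.Agent.P181 Vale.Agent.P181.H280 Finset

variable {A : Type*} [CommRing A] [Algebra ℂ A]

/-- The exchange identity, as an equality. -/
theorem exchange_eq (L : Submodule ℂ A) {e : ℕ}
    (ψ : MultilinearMap ℂ (fun _ : Fin (e + 2) => A) ℂ)
    (hQ : ∀ w ∈ L, ∀ g ∈ L ^ e, ∀ v : Fin (e + 1) → A, (∀ i, v i ∈ L ^ e) →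
      ψ (Fin.cons (w * g) (fun i => w * v i)) = 0)
    (u w : A) (hu : u ∈ L) (hw : w ∈ L) (v : Fin (e + 1) → A) (hv : ∀ i, v i ∈ L ^ e) :
    ψ (Fin.cons (u ^ (e + 1)) (fun i => w * v i)) =
      (-1) ^ (e + 1) * ψ (Fin.cons (w ^ (e + 1)) (fun i => u * v i)) := by
  obtain ⟨p, hp, hp0, -⟩ := line_poly (ψ.curryLeft (w ^ (e + 1))) (fun i => u * v i)
    (fun i => w * v i)
  obtain ⟨q, hq, -, hqc⟩ := line_poly (ψ.curryLeft (u ^ (e + 1))) (fun i => u * v i)
    (fun i => w * v i)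
  simp only [MultilinearMap.curryLeft_apply] at hp hp0 hq hqc
  have hstep : ∀ t : ℂ, ∀ k ≤ e + 1,
      ψ (Fin.cons (u ^ (e + 1)) (fun i => u * v i + t • (w * v i))) =
      (-t) ^ k * ψ (Fin.cons (w ^ k * u ^ (e + 1 - k)) (fun i => u * v i + t • (w * v i))) := by
    intro t k
    induction k with
    | zero =>
      intro _
      simp
    | succ k ih =>
      intro hk
      rw [ih (by omega)]
      obtain ⟨c, hc⟩ : ∃ c, e = k + c := ⟨e - k, by omega⟩
      have h1 : e + 1 - k = c + 1 := by omega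
      have h2 : e + 1 - (k + 1) = c := by omega
      rw [h1, h2]
      have h3 : (fun i => u * v i + t • (w * v i)) = fun i => (u + t • w) * v i := by
        funext i
        rw [add_mul, smul_mul_assoc]
      have h4 := hQ (u + t • w) (L.add_mem hu (L.smul_mem t hw)) (w ^ k * u ^ c) (by
        rw [hc, pow_add]
        exact Submodule.mul_mem_mul (Submodule.pow_mem_pow L hw k) (Submodule.pow_mem_pow L hu c))
        v hv
      rw [← h3] at h4
      have h5 : (u + t • w) * (w ^ k * u ^ c) =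
          w ^ k * u ^ (c + 1) + t • (w ^ (k + 1) * u ^ c) := by
        rw [add_mul, smul_mul_assoc]
        congr 1
        · ring
        · congr 1
          ring
      rw [h5, MultilinearMap.cons_add, MultilinearMap.cons_smul, smul_eq_mul] at h4
      have h6 : (-t) ^ (k + 1) = (-t) ^ k * (-t) := pow_succ _ _
      rw [h6]
      linear_combination ((-t) ^ k) * h4
  have hpoly : q = Polynomial.C ((-1) ^ (e + 1)) * Polynomial.X ^ (e + 1) * p := by
    apply Polynomial.funext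
    intro t
    rw [hq, hstep t (e + 1) le_rfl]
    simp only [Polynomial.eval_mul, Polynomial.eval_C, Polynomial.eval_pow, Polynomial.eval_X, hp,
      Nat.sub_self, pow_zero, mul_one]
    rw [← mul_pow]
    congr 2
    ring
  rw [Fintype.card_fin, hpoly, mul_assoc, Polynomial.coeff_C_mul, Polynomial.coeff_X_pow_mul',
    if_pos le_rfl, Nat.sub_self, hp0] at hqc
  exact hqc.symm

/-- The coefficients of a power of `a + t y`. -/
noncomputable def PP (a y : A) (n k : ℕ) : A := (n.choose k : ℂ) • (a ^ (n - k) * y ^ k)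

lemma pow_PP (a y : A) (n : ℕ) (t : ℂ) :
    (a + t • y) ^ n = ∑ k ∈ range (n + 1), (t ^ k) • PP a y n k := by
  rw [add_comm, add_pow]
  apply Finset.sum_congr rfl
  intro k _
  rw [PP, smul_pow, smul_smul, Algebra.smul_mul_assoc, Algebra.smul_mul_assoc, mul_smul,
    Algebra.smul_def (n.choose k : ℂ), map_natCast]
  congr 1
  ring

/-- Coefficients of a linear functional along a line. -/
lemma lin_coef (T : A →ₗ[ℂ] ℂ) (w v : A) (n : ℕ) (h : ∀ s : ℂ, T ((w + s • v) ^ n) = 0)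
    (m : ℕ) (hm : m ≤ n) : T (w ^ (n - m) * v ^ m) = 0 := by
  let p : Polynomial ℂ := ∑ k ∈ range (n + 1), Polynomial.C (T (PP w v n k)) * Polynomial.X ^ k
  have hp : p = 0 := by
    apply Polynomial.funext
    intro t
    rw [Polynomial.eval_zero, ← h t, pow_PP, map_sum]
    simp only [p, Polynomial.eval_finsetSum, Polynomial.eval_mul, Polynomial.eval_C,
      Polynomial.eval_pow, Polynomial.eval_X]
    apply Finset.sum_congr rfl
    intro k _
    rw [map_smul, smul_eq_mul, mul_comm]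
  have h2 := congrArg (fun q => q.coeff m) hp
  simp only [p, Polynomial.finsetSum_coeff, Polynomial.coeff_C_mul, Polynomial.coeff_X_pow,
    Polynomial.coeff_zero, mul_ite, mul_one, mul_zero] at h2
  rw [Finset.sum_ite_eq, if_pos (by rw [Finset.mem_range]; omega), PP, map_smul,
    smul_eq_mul] at h2
  exact (mul_eq_zero.1 h2).resolve_left (Nat.cast_ne_zero.2 (Nat.choose_pos hm).ne')

lemma bil_sum (B : A →ₗ[ℂ] A →ₗ[ℂ] ℂ) (s t : Finset ℕ) (f g : ℕ → A) :
    B (∑ i ∈ s, f i) (∑ l ∈ t, g l) = ∑ i ∈ s, ∑ l ∈ t, B (f i) (g l) := by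
  rw [map_sum B f s, LinearMap.sum_apply]
  apply Finset.sum_congr rfl
  intro i _
  rw [map_sum]

/-- The first-order term of a bilinear identity along a line. -/
lemma bil_first (B : A →ₗ[ℂ] A →ₗ[ℂ] ℂ) (a y g h : A) (M N : ℕ)
    (H : ∀ t : ℂ, B ((a + t • y) ^ (M + 1) * g) ((a + t • y) ^ (N + 1) * h) = 0) :
    ((M + 1 : ℕ) : ℂ) * B (a ^ M * y * g) (a ^ (N + 1) * h) +
      ((N + 1 : ℕ) : ℂ) * B (a ^ (M + 1) * g) (a ^ N * y * h) = 0 := by
  classical
  let p : Polynomial ℂ := ∑ k ∈ range (M + 2), ∑ l ∈ range (N + 2),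
    Polynomial.C (B (PP a y (M + 1) k * g) (PP a y (N + 1) l * h)) * Polynomial.X ^ (k + l)
  have hp : p = 0 := by
    apply Polynomial.funext
    intro t
    rw [Polynomial.eval_zero, ← H t, pow_PP, pow_PP, Finset.sum_mul, Finset.sum_mul, bil_sum]
    simp only [p, Polynomial.eval_finsetSum, Polynomial.eval_mul, Polynomial.eval_C,
      Polynomial.eval_pow, Polynomial.eval_X]
    apply Finset.sum_congr rfl
    intro k _
    apply Finset.sum_congr rfl
    intro l _
    rw [Algebra.smul_mul_assoc, Algebra.smul_mul_assoc, map_smul, LinearMap.map_smul₂,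
      smul_eq_mul, smul_eq_mul, pow_add]
    ring
  have h2 := congrArg (fun q => q.coeff 1) hp
  simp only [p, Polynomial.finsetSum_coeff, Polynomial.coeff_C_mul, Polynomial.coeff_X_pow,
    Polynomial.coeff_zero, mul_ite, mul_one, mul_zero] at h2
  have h3 : ∑ k ∈ range (M + 2), ∑ l ∈ range (N + 2),
      (if 1 = k + l then B (PP a y (M + 1) k * g) (PP a y (N + 1) l * h) else 0) =
      B (PP a y (M + 1) 1 * g) (PP a y (N + 1) 0 * h) +
      B (PP a y (M + 1) 0 * g) (PP a y (N + 1) 1 * h) := by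
    have h4 : ∀ k ∈ range (M + 2), ∑ l ∈ range (N + 2),
        (if 1 = k + l then B (PP a y (M + 1) k * g) (PP a y (N + 1) l * h) else 0) =
        (if 1 = k then B (PP a y (M + 1) 1 * g) (PP a y (N + 1) 0 * h) else 0) +
        (if 0 = k then B (PP a y (M + 1) 0 * g) (PP a y (N + 1) 1 * h) else 0) := by
      intro k _
      rcases k with _ | k
      · rw [Finset.sum_eq_single 1]
        · simp
        · intro l _ hl
          rw [if_neg]
          omega
        · intro hl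
          exact absurd (Finset.mem_range.2 (by omega)) hl
      · rcases k with _ | k
        · rw [Finset.sum_eq_single 0]
          · simp
          · intro l _ hl
            rw [if_neg]
            omega
          · intro hl
            exact absurd (Finset.mem_range.2 (by omega)) hl
        · rw [Finset.sum_eq_zero]
          · simp
          · intro l _
            rw [if_neg]
            omega
    rw [Finset.sum_congr rfl h4, Finset.sum_add_distrib, Finset.sum_ite_eq,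
      if_pos (by rw [Finset.mem_range]; omega), Finset.sum_ite_eq,
      if_pos (by rw [Finset.mem_range]; omega)]
  rw [h3] at h2
  have e1 : ∀ n : ℕ, PP a y (n + 1) 1 = ((n + 1 : ℕ) : ℂ) • (a ^ n * y) := by
    intro n
    rw [PP, Nat.choose_one_right, pow_one, Nat.add_sub_cancel]
  have e0 : ∀ n : ℕ, PP a y (n + 1) 0 = a ^ (n + 1) := by
    intro n
    rw [PP, Nat.choose_zero_right, Nat.cast_one, one_smul, pow_zero, mul_one, Nat.sub_zero]
  rw [e1, e1, e0, e0, Algebra.smul_mul_assoc, Algebra.smul_mul_assoc, map_smul,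
    LinearMap.smul_apply, map_smul, smul_eq_mul, smul_eq_mul] at h2
  exact h2

/-- The chain of the coefficients of lowest degree. -/
theorem chain (B : A →ₗ[ℂ] A →ₗ[ℂ] ℂ) (L : Submodule ℂ A) (n m : ℕ) (hm : m ≤ n)
    (h : ∀ a ∈ L, ∀ y ∈ L, ∀ i l : ℕ, i + l < m →
      B (a ^ (n + 1 - i) * y ^ i) (a ^ (n - l) * y ^ l) = 0)
    (a y : A) (ha : a ∈ L) (hy : y ∈ L) : ∀ p ≤ m,
    ((n + 1).descFactorial p : ℂ) * B (a ^ (n + 1 - p) * y ^ p) (a ^ (n - (m - p)) * y ^ (m - p)) =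
      (-1) ^ p * ((n + 1 - m).ascFactorial p : ℂ) * B (a ^ (n + 1)) (a ^ (n - m) * y ^ m) := by
  intro p
  induction p with
  | zero =>
    intro _
    simp
  | succ p ih =>
    intro hp
    have ihp := ih (by omega)
    obtain ⟨M, hM⟩ : ∃ M, n + 1 - p = M + 1 := ⟨n - p, by omega⟩
    obtain ⟨N, hN⟩ : ∃ N, n - (m - 1 - p) = N + 1 := ⟨n - (m - 1 - p) - 1, by omega⟩
    have h1 := bil_first B a y (y ^ p) (y ^ (m - 1 - p)) M N (by
      intro t
      have h2 := h (a + t • y) (L.add_mem ha (L.smul_mem t hy)) y hy p (m - 1 - p) (by omega)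
      rw [hM, hN] at h2
      exact h2)
    have e1 : a ^ M * y * y ^ p = a ^ (n + 1 - (p + 1)) * y ^ (p + 1) := by
      have : n + 1 - (p + 1) = M := by omega
      rw [this, pow_succ' y]
      ring
    have e2 : a ^ (N + 1) * y ^ (m - 1 - p) = a ^ (n - (m - (p + 1))) * y ^ (m - (p + 1)) := by
      have h5 : m - (p + 1) = m - 1 - p := by omega
      rw [h5, hN]
    have e3 : a ^ (M + 1) * y ^ p = a ^ (n + 1 - p) * y ^ p := by rw [hM]
    have e4 : a ^ N * y * y ^ (m - 1 - p) = a ^ (n - (m - p)) * y ^ (m - p) := by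
      have h5 : n - (m - p) = N := by omega
      have h6 : m - p = (m - 1 - p) + 1 := by omega
      rw [h5, h6, pow_succ' y]
      ring
    rw [e1, e2, e3, e4] at h1
    have hM' : ((M + 1 : ℕ) : ℂ) = ((n + 1 - p : ℕ) : ℂ) := by rw [hM]
    have hN' : ((N + 1 : ℕ) : ℂ) = ((n + 1 - m + p : ℕ) : ℂ) := by
      congr 1
      omega
    rw [hM', hN'] at h1
    rw [Nat.descFactorial_succ, Nat.ascFactorial_succ, Nat.cast_mul, Nat.cast_mul]
    set G1 := B (a ^ (n + 1 - (p + 1)) * y ^ (p + 1)) (a ^ (n - (m - (p + 1))) * y ^ (m - (p + 1)))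
    set G0 := B (a ^ (n + 1 - p) * y ^ p) (a ^ (n - (m - p)) * y ^ (m - p))
    set G := B (a ^ (n + 1)) (a ^ (n - m) * y ^ m)
    rw [pow_succ]
    linear_combination ((n + 1).descFactorial p : ℂ) * h1 -
      ((n + 1 - m + p : ℕ) : ℂ) * ihp

theorem chain_end (B : A →ₗ[ℂ] A →ₗ[ℂ] ℂ) (L : Submodule ℂ A) (n m : ℕ) (hm : m ≤ n)
    (h : ∀ a ∈ L, ∀ y ∈ L, ∀ i l : ℕ, i + l < m →
      B (a ^ (n + 1 - i) * y ^ i) (a ^ (n - l) * y ^ l) = 0)
    (a y : A) (ha : a ∈ L) (hy : y ∈ L) :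
    ((n + 1 : ℕ) : ℂ) * B (a ^ (n + 1 - m) * y ^ m) (a ^ n) =
      (-1) ^ m * ((n + 1 - m : ℕ) : ℂ) * B (a ^ (n + 1)) (a ^ (n - m) * y ^ m) := by
  have h1 := chain B L n m hm h a y ha hy m le_rfl
  rw [Nat.sub_self, Nat.sub_zero, pow_zero, mul_one] at h1
  have h2 : (n + 1 - m).ascFactorial m = n.descFactorial m := by
    have h3 := Nat.add_descFactorial_eq_ascFactorial (n - m) m
    have h4 : n - m + m = n := by omega
    have h5 : n - m + 1 = n + 1 - m := by omega
    rw [h4, h5] at h3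
    exact h3.symm
  rw [h2] at h1
  have h6 : ((n + 1 - m : ℕ) : ℂ) * ((n + 1).descFactorial m : ℂ) =
      ((n + 1 : ℕ) : ℂ) * (n.descFactorial m : ℂ) := by
    exact_mod_cast Nat.succ_descFactorial n m
  have h7 : ((n + 1).descFactorial m : ℂ) ≠ 0 := by
    rw [Nat.cast_ne_zero, Ne, Nat.descFactorial_eq_zero_iff_lt]
    omega
  apply mul_left_cancel₀ h7
  linear_combination ((n + 1 : ℕ) : ℂ) * h1 -
    (-1) ^ m * B (a ^ (n + 1)) (a ^ (n - m) * y ^ m) * h6

theorem chain_zero (B : A →ₗ[ℂ] A →ₗ[ℂ] ℂ) (L : Submodule ℂ A) (n m : ℕ) (hm : m ≤ n)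
    (h : ∀ a ∈ L, ∀ y ∈ L, ∀ i l : ℕ, i + l < m →
      B (a ^ (n + 1 - i) * y ^ i) (a ^ (n - l) * y ^ l) = 0)
    (h0 : ∀ a ∈ L, ∀ y ∈ L, B (a ^ (n + 1)) (a ^ (n - m) * y ^ m) = 0)
    (a y : A) (ha : a ∈ L) (hy : y ∈ L) (i l : ℕ) (hil : i + l < m + 1) :
    B (a ^ (n + 1 - i) * y ^ i) (a ^ (n - l) * y ^ l) = 0 := by
  rcases Nat.lt_or_ge (i + l) m with h1 | h1
  · exact h a ha y hy i l h1
  · have hl : l = m - i := by omega
    have h2 := chain B L n m hm h a y ha hy i (by omega)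
    rw [h0 a ha y hy, mul_zero] at h2
    rw [hl]
    refine (mul_eq_zero.1 h2).resolve_left (Nat.cast_ne_zero.2 ?_)
    rw [Ne, Nat.descFactorial_eq_zero_iff_lt]
    omega

/-- **Rigidity of bilinear forms on powers.** -/
theorem rigid (B : A →ₗ[ℂ] A →ₗ[ℂ] ℂ) (L : Submodule ℂ A) (n : ℕ) (κ : ℂ)
    (hκ : ∀ m ≤ n, (-1) ^ m * ((n + 1 - m : ℕ) : ℂ) ≠ κ)
    (hrel : ∀ w ∈ L, ∀ z ∈ L, ((n + 1 : ℕ) : ℂ) * B (w ^ n * z) (z ^ n) =
      κ * B (z ^ (n + 1)) (w ^ n)) (w z : A) (hw : w ∈ L) (hz : z ∈ L) :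
    B (w ^ (n + 1)) (z ^ n) = 0 := by
  have hG0 : ∀ m ≤ n, (∀ a ∈ L, ∀ y ∈ L, ∀ i l : ℕ, i + l < m →
      B (a ^ (n + 1 - i) * y ^ i) (a ^ (n - l) * y ^ l) = 0) →
      ∀ a ∈ L, ∀ y ∈ L, B (a ^ (n + 1)) (a ^ (n - m) * y ^ m) = 0 := by
    intro m hm h a ha y hy
    have h1 := chain_end B L n m hm h a y ha hy
    let T : A →ₗ[ℂ] ℂ := ((n + 1 : ℕ) : ℂ) •
      ((B.flip (a ^ n)).comp (LinearMap.mulRight ℂ a)) - κ • (B (a ^ (n + 1)))
    have hT : ∀ x, T x = ((n + 1 : ℕ) : ℂ) * B (x * a) (a ^ n) - κ * B (a ^ (n + 1)) x := by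
      intro x
      rfl
    have h2 := lin_coef T a y n (by
      intro s
      rw [hT, hrel (a + s • y) (L.add_mem ha (L.smul_mem s hy)) a ha, sub_self]) m hm
    rw [hT] at h2
    have e1 : a ^ (n - m) * y ^ m * a = a ^ (n + 1 - m) * y ^ m := by
      have h3 : n + 1 - m = n - m + 1 := by omega
      rw [h3, pow_succ]
      ring
    rw [e1, h1] at h2
    have h3 : ((-1) ^ m * ((n + 1 - m : ℕ) : ℂ) - κ) *
        B (a ^ (n + 1)) (a ^ (n - m) * y ^ m) = 0 := by
      linear_combination h2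
    exact (mul_eq_zero.1 h3).resolve_left (sub_ne_zero.2 (hκ m hm))
  have hall : ∀ m ≤ n + 1, ∀ a ∈ L, ∀ y ∈ L, ∀ i l : ℕ, i + l < m →
      B (a ^ (n + 1 - i) * y ^ i) (a ^ (n - l) * y ^ l) = 0 := by
    intro m
    induction m with
    | zero =>
      intro _ a _ y _ i l h
      exact absurd h (Nat.not_lt_zero _)
    | succ m ih =>
      intro hm a ha y hy i l hil
      exact chain_zero B L n m (by omega) (ih (by omega))
        (hG0 m (by omega) (ih (by omega))) a y ha hy i l hil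
  have h1 := hall (n + 1) le_rfl w hw z hz 0 n (by omega)
  simpa using h1

end Vale.Agent.P181.H907
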