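import Vale.Agent.P181.H907.TallEven

set_option autoImplicit false

/-!
# P181: tall shapes, both thresholds in one statement
-/

namespace Vale.Agent.P181.H907

open Vale.Agent.P181 Vale.Agent.P181.H280

/-- **Foulkes' inequality for tall shapes**: `lam_a ≥ b - a + 2`, or `a` even, `b` odd and
`lam_a ≥ b - a + 1`. -/
theorem tall_both (a b n : ℕ) (ha : 3 ≤ a) (hab : a ≤ b) (han : a ≤ n) (lam : Fin n → ℕ)
    (h : ∀ i : Fin n, (i : ℕ) < a →
      b + 2 ≤ lam i + a ∨ (Even a ∧ Odd b ∧ b + 1 ≤ lam i + a)) :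
    plethMult a b n lam ≤ plethMult b a n lam := by
  by_cases hp : Even a ∧ Odd b
  · apply tall_even a b n ha hp.1 hp.2 hab han lam
    intro i hi
    rcases h i hi with h1 | h1
    · omega
    · exact h1.2.2
  · apply H605.tall a b n ha hab han lam
    intro i hi
    rcases h i hi with h1 | h1
    · exact h1
    · exact absurd ⟨h1.1, h1.2.1⟩ hp

end Vale.Agent.P181.H907
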