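import Vale.Agent.P181.H605.AllTall
import Vale.Agent.P181.H907.KS2

set_option autoImplicit false

/-!
# P181: one more column for `a` even and `b` odd

Foulkes' inequality for all `b ≥ a ≥ 4`, `a` even, `b` odd, and all shapes with
`lam_a ≥ b - a + 1`.
-/

namespace Vale.Agent.P181.H907

open Vale.Agent.P181 Vale.Agent.P181.H280 Vale.Agent.P181.H270 Vale.Agent.P181.H73
  Vale.Agent.P181.H983 Vale.Agent.P181.H605 Finset MvPolynomial

/-- The alternated form of degree `a - 1` kills common linear factors. -/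
theorem kills (h3 : S3) (h4a : S4a) (h4b : S4b) (h5 : S5) (h6 : S6)
    {c q k : ℕ} (ih : Claim' c q k)
    (F : MultilinearMap ℂ (fun _ : Fin (c + 3) => MvPolynomial (Fin (c + 3)) ℂ) ℂ)
    (hs : IsSymm F) (hR : Rel (k + 1) (q + 1) (linS (c + 3)) F) :
    ∀ l ∈ linS (c + 3), ∀ y : Fin (c + 3) → MvPolynomial (Fin (c + 3)) ℂ,
      (∀ i, y i ∈ linS (c + 3) ^ (c + 1)) →
      ((altC (xs (c + 3)))^[q * (c + 3) + k + 2] F) (fun i => l * y i) = 0 := by
  set M := q * (c + 3) + k + 2 with hM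
  have hd : (c + 1) + M = (q + 1) * (c + 3) + k := by rw [hM]; ring
  intro l hl
  have hsl : IsSymm (mulL l F) := mulL_symm l hs
  obtain ⟨F', hs', hF'⟩ := h3 M (c + 3) ((c + 1) + M) (mulL l F) hsl
  have hrel : Rel k (q + 1) (linS (c + 3)) F' := by
    apply h6
    intro w
    have h1 : ∀ (e : Equiv.Perm (Fin k ⊕ (Fin (c + 3) × Fin (q + 1))))
        (σ : Fin k → Equiv.Perm (Fin (c + 3))), wv (slot e σ) F' w =
        colZ M (c + 3) (wv (slot e σ) (mulL l F)) w := by
      intro e σ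
      apply hF'
      intro p
      rw [slot_fibre, hd]
    simp only [h1]
    have h2 : ∑ e : Equiv.Perm (Fin k ⊕ (Fin (c + 3) × Fin (q + 1))),
        ∑ σ : Fin k → Equiv.Perm (Fin (c + 3)),
          colZ M (c + 3) (wv (slot e σ) (mulL l F)) w =
        ∑ ι : Fin M × Fin (c + 3) ↪ (Fin k ⊕ (Fin (c + 3) × Fin (q + 1))) × Fin (c + 3),
          colSum ι (fun w => ∑ e : Equiv.Perm (Fin k ⊕ (Fin (c + 3) × Fin (q + 1))),
            ∑ σ : Fin k → Equiv.Perm (Fin (c + 3)), wv (slot e σ) (mulL l F) w) w := by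
      simp only [colSum_sum univ, colZ]
      rw [Finset.sum_congr rfl (fun e _ => Finset.sum_comm), Finset.sum_comm]
    rw [h2]
    apply Finset.sum_eq_zero
    intro ι _
    exact h5 (c + 3) k q M F hR l hl (by rw [hM]) ι w
  have hz := ih F' hs' hrel
  have hfin : ∀ P : Fin (c + 3) → MvPolynomial (Fin (c + 3)) ℂ,
      (∀ i, P i ∈ linS (c + 3) ^ (c + 1)) →
      ((altC (fun i => (X i : MvPolynomial (Fin (c + 3)) ℂ)))^[M] (mulL l F)) P = 0 := by
    apply h4b (c + 3) M (c + 1) (mulL l F) hsl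
    apply s1
    intro ι w
    have h1 : (wv (fun p : Fin (c + 3) × Fin (c + 1 + M) => p.1) F') =
        colZ M (c + 3) (wv (fun p => p.1) (mulL l F)) := by
      funext w
      apply hF'
      intro p
      apply fst_fibre' rfl
    rw [← h1]
    apply h4a (c + 3) M (c + 1) F' hs' hz
    intro p
    apply fst_fibre' rfl
  intro y hy
  rw [← altC_iter_mulL]
  exact hfin y hy

/-- The alternated form of degree `a - 1` is zero. -/
theorem claimEven {c q k : ℕ} (hc : Odd c) (hke : Even k) (hk : k ≤ c + 1)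
    (F : MultilinearMap ℂ (fun _ : Fin (c + 3) => MvPolynomial (Fin (c + 3)) ℂ) ℂ)
    (hs : IsSymm F) (hR : Rel (k + 1) (q + 1) (linS (c + 3)) F)
    (P : Fin (c + 3) → MvPolynomial (Fin (c + 3)) ℂ) (hP : ∀ i, P i ∈ linS (c + 3) ^ (c + 2)) :
    ((altC (xs (c + 3)))^[q * (c + 3) + k + 2] F) P = 0 := by
  have hkill := kills H964.S3.s3 H270.s4a H968.s4b H869.s5 H879.s6
    (claim_all' rect c q k (by omega)) F hs hR
  have hM : Even (q * (c + 3) + k + 2) := by
    have h1 : Even (c + 3) := by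
      obtain ⟨j, hj⟩ := hc
      exact ⟨j + 2, by omega⟩
    have h2 : Even (q * (c + 3)) := h1.mul_left q
    exact (h2.add hke).add ⟨1, rfl⟩
  have hsy : IsSymm ((altC (xs (c + 3)))^[q * (c + 3) + k + 2] F) := by
    have h1 := isSgn_iter hs (xs (c + 3)) (q * (c + 3) + k + 2)
    intro σ P
    have h2 := h1 σ P
    rw [h2]
    have h3 : ((Equiv.Perm.sign σ : ℤ) : ℂ) ^ (q * (c + 3) + k + 2) = 1 := by
      rcases Int.units_eq_one_or (Equiv.Perm.sign σ) with h | h
      · rw [h]; simp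
      · rw [h]
        simp [hM.neg_one_pow]
    rw [h3, one_mul]
  exact kStar hkill hc hsy P hP

/-- The hybrid map kills no highest weight vector with `b - a + 1` full columns. -/
theorem vanishEven {c q k b : ℕ} (hc : Odd c) (hke : Even k) (hk : k ≤ c + 1)
    (hb : b = (q + 1) * (c + 3) + (k + 1))
    (lam : Fin (c + 3) → ℕ) (hanti : ∀ i, lam (Fin.last (c + 2)) ≤ lam i)
    (h1 : q * (c + 3) + k + 2 ≤ lam (Fin.last (c + 2)))
    (h2 : lam (Fin.last (c + 2)) ≤ b)
    (l : (Fin (c + 3) → Fin b → (Fin (c + 3) → ℂ)) →₀ ℂ)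
    (hx : elOf l ∈ hwSpace lam (plethAct (c + 3) b (c + 3)))
    (hF : Rel (k + 1) (q + 1) (linS (c + 3)) (formOf l)) :
    ∀ P : Fin (c + 3) → MvPolynomial (Fin (c + 3)) ℂ, (∀ i, P i ∈ linS (c + 3) ^ b) →
      formOf l P = 0 := by
  have hHW : HWForm (xs (c + 3)) (fun i => pderiv i) (fun b => linS (c + 3) ^ b) b
      (fun i => (lam i : ℂ)) (formOf l) := by
    have h1 := hwForm_formOf (le_refl (c + 3)) lam l hx
    simpa using h1
  set m := lam (Fin.last (c + 2)) with hm
  have hqq : (q + 1) * (c + 3) = q * (c + 3) + (c + 3) := by ring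
  apply descent lam (formOf l) (formOf_symm l) hHW m (by omega) hanti
  have h3 : ∀ P : Fin (c + 3) → MvPolynomial (Fin (c + 3)) ℂ,
      (∀ i, P i ∈ linS (c + 3) ^ (c + 2)) →
      ((altC (xs (c + 3)))^[q * (c + 3) + k + 2] (formOf l)) P = 0 :=
    claimEven hc hke hk (formOf l) (formOf_symm l) hF
  intro P hP
  obtain ⟨t, ht⟩ : ∃ t, m = t + (q * (c + 3) + k + 2) := ⟨m - (q * (c + 3) + k + 2), by omega⟩
  have h4 : (altC (fun i => (X i : MvPolynomial (Fin (c + 3)) ℂ)))^[m] (formOf l) =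
      (altC (xs (c + 3)))^[t] ((altC (xs (c + 3)))^[q * (c + 3) + k + 2] (formOf l)) := by
    rw [← Function.iterate_add_apply, ← ht]
  rw [h4]
  apply altC_iter_zero (linS (c + 3)) (xs (c + 3)) (xs_mem _) t (b - m) _ _ P hP
  intro Q hQ
  apply h3 Q
  intro i
  have h5 : c + 2 = b - m + t := by omega
  rw [h5]
  exact hQ i

/-- `dim V = a`. -/
theorem tallEven_self {a b : ℕ} (ha : 3 ≤ a) (hae : Even a) (hbo : Odd b) (hab : a ≤ b)
    (lam : Fin a → ℕ) (hanti : Antitone lam) (h1 : ∀ i, b + 1 ≤ lam i + a)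
    (h2 : ∀ i : Fin a, (i : ℕ) + 1 = a → lam i ≤ b) :
    plethMult a b a lam ≤ plethMult b a a lam := by
  obtain ⟨c, rfl⟩ := Nat.exists_eq_add_of_le' ha
  have hlast : ∀ i, lam (Fin.last (c + 2)) ≤ lam i := fun i => hanti (Fin.le_last i)
  have hdm := Nat.div_add_mod b (c + 3)
  have hmod : b % (c + 3) < c + 3 := Nat.mod_lt _ (by omega)
  have hdiv : 1 ≤ b / (c + 3) := (Nat.one_le_div_iff (by omega)).2 hab
  obtain ⟨q, hq⟩ : ∃ q, b / (c + 3) = q + 1 := ⟨b / (c + 3) - 1, by omega⟩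
  rw [hq] at hdm
  have hev : Even ((c + 3) * (q + 1)) := hae.mul_right (q + 1)
  have hk1 : Odd (b % (c + 3)) := by
    rcases Nat.even_or_odd (b % (c + 3)) with h | h
    · exfalso
      have h3 : Even b := by
        rw [← hdm]
        exact hev.add h
      exact (Nat.not_even_iff_odd.2 hbo) h3
    · exact h
  obtain ⟨k, hk⟩ : ∃ k, b % (c + 3) = k + 1 := by
    obtain ⟨j, hj⟩ := hk1
    exact ⟨2 * j, hj⟩
  have hke : Even k := by
    rw [hk] at hk1
    obtain ⟨j, hj⟩ := hk1
    exact ⟨j, by omega⟩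
  have hc : Odd c := by
    obtain ⟨j, hj⟩ := hae
    exact ⟨j - 2, by omega⟩
  have hb : b = (q + 1) * (c + 3) + (k + 1) := by rw [← hdm, hk]; ring
  have hcard : Fintype.card (H394.T (k + 1) (c + 3) (q + 1)) = b := by
    rw [Fintype.card_sum, Fintype.card_prod, Fintype.card_fin, Fintype.card_fin,
      Fintype.card_fin, hb]
    ring
  let ε : H394.T (k + 1) (c + 3) (q + 1) ≃ Fin b := Fintype.equivFinOfCardEq hcard
  have hqq : (q + 1) * (c + 3) = q * (c + 3) + (c + 3) := by ring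
  refine (H394.plethMult_le_of_formG ε lam ?_).2
  intro l hx hF
  apply vanishEven hc hke (by omega) hb lam hlast _ _ l hx hF
  · have h3 := h1 (Fin.last (c + 2))
    omega
  · exact h2 (Fin.last (c + 2)) (by simp)

/-- **Foulkes' inequality for `a` even, `b` odd and all shapes with `lam_a ≥ b - a + 1`.** -/
theorem tall_even (a b n : ℕ) (ha : 3 ≤ a) (hae : Even a) (hbo : Odd b) (hab : a ≤ b)
    (han : a ≤ n) (lam : Fin n → ℕ) (h1 : ∀ i : Fin n, (i : ℕ) < a → b + 1 ≤ lam i + a) :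
    plethMult a b n lam ≤ plethMult b a n lam := by
  by_cases h0 : plethMult a b n lam = 0
  · rw [h0]
    exact Nat.zero_le _
  · obtain ⟨hanti, hsum, hz⟩ := H530.zero_stmt a b n lam h0
    obtain ⟨k, rfl⟩ := Nat.exists_eq_add_of_le han
    set mu : Fin a → ℕ := fun i => lam (Fin.castAdd k i) with hmu
    have hlam : lam = fun i : Fin (a + k) => if h : (i : ℕ) < a then mu ⟨i, h⟩ else 0 := by
      funext i
      by_cases hi : (i : ℕ) < a
      · rw [dif_pos hi, hmu]
        congr 1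
      · rw [dif_neg hi]
        exact hz i (by omega)
    have hanti' : Antitone mu := by
      intro i j hij
      have hij' : (i : ℕ) ≤ j := hij
      exact hanti (show Fin.castAdd k i ≤ Fin.castAdd k j from hij')
    have hsum' : ∑ i, mu i = a * b := by
      rw [← hsum, Fin.sum_univ_add]
      have h5 : ∑ i : Fin k, lam (Fin.natAdd a i) = 0 := by
        apply Finset.sum_eq_zero
        intro i _
        exact hz _ (by simp)
      rw [h5, add_zero]
    rw [hlam, H530.pad_stmt a b a k mu, H530.pad_stmt b a a k mu]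
    apply tallEven_self ha hae hbo hab mu hanti'
    · intro i
      exact h1 (Fin.castAdd k i) (by simp)
    · intro i hi
      exact last_le (by omega) mu hanti' hsum' i hi

end Vale.Agent.P181.H907
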