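import Vale.Agent.P181.H280.Capelli

set_option autoImplicit false

namespace Vale.Agent.P181.H907

open Vale.Agent.P181 Vale.Agent.P181.H280 Finset

/-- The polynomial of a multilinear form along a line. -/
lemma line_poly {κ : Type*} [Fintype κ] [DecidableEq κ] {M : Type*} [AddCommGroup M] [Module ℂ M]
    (f : MultilinearMap ℂ (fun _ : κ => M) ℂ) (x y : κ → M) :
    ∃ p : Polynomial ℂ, (∀ t, p.eval t = f (fun i => x i + t • y i)) ∧ p.coeff 0 = f x ∧
      p.coeff (Fintype.card κ) = f y := by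
  let p : Polynomial ℂ :=
    ∑ s : Finset κ, Polynomial.C (f (s.piecewise x y)) * Polynomial.X ^ (sᶜ).card
  have hev : ∀ t, p.eval t = f (fun i => x i + t • y i) := by
    intro t
    have h1 : (fun i => x i + t • y i) = x + t • y := rfl
    rw [h1, MultilinearMap.map_add_univ]
    simp only [p, Polynomial.eval_finsetSum, Polynomial.eval_mul, Polynomial.eval_C,
      Polynomial.eval_pow, Polynomial.eval_X]
    apply Finset.sum_congr rfl
    intro s _
    have h2 : s.piecewise x (t • y) = sᶜ.piecewise (fun i => t • (s.piecewise x y) i)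
        (s.piecewise x y) := by
      funext i
      by_cases hi : i ∈ s
      · simp [Finset.piecewise, hi]
      · simp [Finset.piecewise, hi]
    rw [h2, MultilinearMap.map_piecewise_smul]
    simp [mul_comm]
  refine ⟨p, hev, ?_, ?_⟩
  · rw [Polynomial.coeff_zero_eq_eval_zero, hev]
    simp
  · simp only [p, Polynomial.finsetSum_coeff, Polynomial.coeff_C_mul, Polynomial.coeff_X_pow,
      mul_ite, mul_one, mul_zero]
    rw [Finset.sum_eq_single ∅]
    · simp
    · intro s _ hs
      rw [if_neg]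
      intro h
      apply hs
      have h1 := Finset.card_add_card_compl s
      rw [← h] at h1
      rw [← Finset.card_eq_zero]
      omega
    · intro h
      exact absurd (Finset.mem_univ _) h

variable {A : Type*} [CommRing A] [Algebra ℂ A]

/-- The exchange identity. -/
lemma exchange (L : Submodule ℂ A) {e : ℕ} (ψ : MultilinearMap ℂ (fun _ : Fin (e + 2) => A) ℂ)
    (hQ : ∀ w ∈ L, ∀ g ∈ L ^ e, ∀ v : Fin (e + 1) → A, (∀ i, v i ∈ L ^ e) →
      ψ (Fin.cons (w * g) (fun i => w * v i)) = 0)
    (u w : A) (hu : u ∈ L) (hw : w ∈ L) (v : Fin (e + 1) → A) (hv : ∀ i, v i ∈ L ^ e)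
    (h0 : ψ (Fin.cons (w ^ (e + 1)) (fun i => u * v i)) = 0) :
    ψ (Fin.cons (u ^ (e + 1)) (fun i => w * v i)) = 0 := by
  obtain ⟨p, hp, hp0, -⟩ := line_poly (ψ.curryLeft (w ^ (e + 1))) (fun i => u * v i)
    (fun i => w * v i)
  obtain ⟨q, hq, -, hqc⟩ := line_poly (ψ.curryLeft (u ^ (e + 1))) (fun i => u * v i)
    (fun i => w * v i)
  simp only [MultilinearMap.curryLeft_apply] at hp hp0 hq hqc
  have hstep : ∀ t : ℂ, ∀ k ≤ e + 1,
      ψ (Fin.cons (u ^ (e + 1)) (fun i => u * v i + t • (w * v i))) =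
      (-t) ^ k * ψ (Fin.cons (w ^ k * u ^ (e + 1 - k)) (fun i => u * v i + t • (w * v i))) := by
    intro t k
    induction k with
    | zero =>
      intro _
      simp
    | succ k ih =>
      intro hk
      rw [ih (by omega)]
      obtain ⟨c, hc⟩ : ∃ c, e = k + c := ⟨e - k, by omega⟩
      have h1 : e + 1 - k = c + 1 := by omega
      have h2 : e + 1 - (k + 1) = c := by omega
      rw [h1, h2]
      have h3 : (fun i => u * v i + t • (w * v i)) = fun i => (u + t • w) * v i := by
        funext i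
        rw [add_mul, smul_mul_assoc]
      have h4 := hQ (u + t • w) (L.add_mem hu (L.smul_mem t hw)) (w ^ k * u ^ c) (by
        rw [hc, pow_add]
        exact Submodule.mul_mem_mul (Submodule.pow_mem_pow L hw k) (Submodule.pow_mem_pow L hu c))
        v hv
      rw [← h3] at h4
      have h5 : (u + t • w) * (w ^ k * u ^ c) =
          w ^ k * u ^ (c + 1) + t • (w ^ (k + 1) * u ^ c) := by
        rw [add_mul, smul_mul_assoc]
        congr 1
        · ring
        · congr 1
          ring
      rw [h5, MultilinearMap.cons_add, MultilinearMap.cons_smul, smul_eq_mul] at h4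
      have h6 : (-t) ^ (k + 1) = (-t) ^ k * (-t) := pow_succ _ _
      rw [h6]
      linear_combination ((-t) ^ k) * h4
  have hpoly : q = Polynomial.C ((-1) ^ (e + 1)) * Polynomial.X ^ (e + 1) * p := by
    apply Polynomial.funext
    intro t
    rw [hq, hstep t (e + 1) le_rfl]
    simp only [Polynomial.eval_mul, Polynomial.eval_C, Polynomial.eval_pow, Polynomial.eval_X, hp,
      Nat.sub_self, pow_zero, mul_one]
    rw [← mul_pow]
    congr 2
    ring
  rw [Fintype.card_fin, hpoly, mul_assoc, Polynomial.coeff_C_mul, Polynomial.coeff_X_pow_mul',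
    if_pos le_rfl, Nat.sub_self, hp0, h0, mul_zero] at hqc
  exact hqc.symm

/-- The condition `(Y)` in degree `d + 1`. -/
def YF {a : ℕ} (L : Submodule ℂ A) (d : ℕ) (φ : MultilinearMap ℂ (fun _ : Fin a => A) ℂ) : Prop :=
  ∀ P : Fin a → A, ∀ i i' : Fin a, i ≠ i' → ∀ u ∈ L, ∀ v ∈ L ^ d, P i = u ^ (d + 1) →
    P i' = u * v → (∀ k, P k ∈ L ^ (d + 1)) → φ P = 0

lemma sgn_ne_zero {a : ℕ} (σ : Equiv.Perm (Fin a)) (k : ℕ) :
    ((Equiv.Perm.sign σ : ℤ) : ℂ) ^ k ≠ 0 := by
  apply pow_ne_zero
  rcases Int.units_eq_one_or (Equiv.Perm.sign σ) with h | h <;> rw [h] <;> simp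

lemma IsSgn.zero {a k : ℕ} {F : MultilinearMap ℂ (fun _ : Fin a => A) ℂ} (hF : IsSgn k F)
    (σ : Equiv.Perm (Fin a)) (P : Fin a → A) (h : F (fun i => P (σ i)) = 0) : F P = 0 := by
  rw [hF σ P] at h
  exact (mul_eq_zero.1 h).resolve_left (sgn_ne_zero σ k)

/-- A permutation with prescribed values at `0` and `1`. -/
lemma exists_perm {e : ℕ} (i i' : Fin (e + 2)) (h : i ≠ i') :
    ∃ σ : Equiv.Perm (Fin (e + 2)), σ 0 = i ∧ σ 1 = i' := by
  have hx : Equiv.swap 1 ((Equiv.swap 0 i).symm i') 0 = 0 := by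
    apply Equiv.swap_apply_of_ne_of_ne (Fin.zero_ne_one)
    intro hh
    apply h
    have h1 := congrArg (Equiv.swap 0 i) hh
    rw [Equiv.apply_symm_apply, Equiv.swap_apply_left] at h1
    exact h1
  refine ⟨Equiv.swap 0 i * Equiv.swap 1 ((Equiv.swap 0 i).symm i'), ?_, ?_⟩
  · rw [Equiv.Perm.coe_mul, Function.comp_apply, hx, Equiv.swap_apply_left]
  · rw [Equiv.Perm.coe_mul, Function.comp_apply, Equiv.swap_apply_left, Equiv.apply_symm_apply]

/-- **(Q) implies (Y).** -/
theorem yf_of_q (L : Submodule ℂ A) {e k : ℕ} (φ : MultilinearMap ℂ (fun _ : Fin (e + 3) => A) ℂ)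
    (hs : IsSgn k φ)
    (hQ : ∀ w ∈ L, ∀ g ∈ L ^ (e + 1), ∀ v : Fin (e + 2) → A, (∀ i, v i ∈ L ^ e) →
      φ (Fin.cons g (fun i => w * v i)) = 0) : YF L e φ := by
  have key : ∀ u ∈ L, ∀ v₀ ∈ L ^ e, ∀ h : Fin (e + 1) → A, (∀ i, h i ∈ L ^ (e + 1)) →
      φ (Fin.cons (u * v₀) (Fin.cons (u ^ (e + 1)) h)) = 0 := by
    intro u hu v₀ hv₀ h hh
    have h1 : ∀ h : Fin (e + 1) → A, (∀ i, h i ∈ L ^ (e + 1)) →
        ((φ.curryLeft (u * v₀)).curryLeft (u ^ (e + 1))) h = 0 := by
      refine peel L 1 (e + 1) _ (by omega) (by omega) ?_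
      intro ξ hξ P hP
      rw [Nat.add_sub_cancel] at hP
      simp only [Finset.univ_unique, Fin.default_eq_zero, Fin.isValue, Finset.prod_singleton]
      rw [MultilinearMap.curryLeft_apply]
      apply exchange L (φ.curryLeft (u * v₀)) ?_ u (ξ 0) hu (hξ 0) P hP
      · rw [MultilinearMap.curryLeft_apply]
        apply IsSgn.zero hs (Equiv.swap 0 1)
        rw [← hQ u hu (ξ 0 ^ (e + 1)) (Submodule.pow_mem_pow L (hξ 0) _) (Fin.cons v₀ P) (by
          intro i
          refine Fin.cases ?_ (fun s => ?_) i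
          · exact hv₀
          · exact hP s)]
        congr 1
        funext i
        refine Fin.cases ?_ (fun s => ?_) i
        · rw [Equiv.swap_apply_left]
          rfl
        · refine Fin.cases ?_ (fun s => ?_) s
          · have h2 : (Fin.succ 0 : Fin (e + 3)) = 1 := rfl
            rw [h2, Equiv.swap_apply_right]
            rfl
          · rw [Equiv.swap_apply_of_ne_of_ne (Fin.succ_ne_zero _)]
            · simp
            · intro h2
              have h3 : (1 : Fin (e + 3)) = Fin.succ 0 := rfl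
              rw [h3] at h2
              exact Fin.succ_ne_zero _ (Fin.succ_injective _ h2)
      · intro w hw g hg v hv
        rw [MultilinearMap.curryLeft_apply]
        rw [← hQ w hw (u * v₀) (by rw [pow_succ']; exact Submodule.mul_mem_mul hu hv₀)
          (Fin.cons g v) (by
          intro i
          refine Fin.cases ?_ (fun s => ?_) i
          · exact hg
          · exact hv s)]
        congr 1
        funext i
        refine Fin.cases ?_ (fun s => ?_) i
        · rfl
        · refine Fin.cases ?_ (fun s => ?_) s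
          · rfl
          · simp
    exact h1 h hh
  intro P i i' hne u hu v hv hPi hPi' hP
  obtain ⟨σ, hσ0, hσ1⟩ := exists_perm (e := e + 1) i' i (Ne.symm hne)
  apply IsSgn.zero hs σ
  rw [← key u hu v hv (fun s => P (σ s.succ.succ)) (fun s => hP _)]
  congr 1
  funext s
  refine Fin.cases ?_ (fun s => ?_) s
  · rw [hσ0, hPi']
    rfl
  · refine Fin.cases ?_ (fun s => ?_) s
    · have h2 : (Fin.succ 0 : Fin (e + 3)) = 1 := rfl
      rw [h2, hσ1, hPi]
      rfl
    · rfl

end Vale.Agent.P181.H907
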